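import Vale.Agent.P181.DU.Shift
import Vale.Agent.P181.DG7.Flow

set_option autoImplicit false

/-!
# P181, DU, (W7) (helper317): the flow with the joint shift
-/

namespace Vale.Agent.P181.DU.S317.W7

open Vale.Agent.P181.DG
open Vale.Agent.P181.DG7 (mem_KT dd)
open Vale.Agent.P181.SZC1 (double_count card_values blk blk_ge blk_lt blk_disj card_blk lets
  mem_lets sum_lets card_lets nodup_lets card_not_mem)

/-- the gap -/
theorem gap {r : Multiset ℕ} {a X w : ℕ} (hX : 1 ≤ X) (hr : r.sum ≤ w)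
    (hw : 16 * (w * X) ≤ a ^ 2) (haw : a < w) :
    ∃ th, th ≤ a ∧ X ≤ th ∧ a ≤ 2 * (th - X) ∧ ∀ x ∈ r, x ≤ th - X ∨ th < x := by
  classical
  by_contra hcon
  push Not at hcon
  obtain ⟨N, hN⟩ : ∃ N, N = a / (2 * X) := ⟨_, rfl⟩
  have hN1 : N * (2 * X) ≤ a := by rw [hN]; exact Nat.div_mul_le_self _ _
  have hN2 : a < (N + 1) * (2 * X) := by
    rw [hN]
    exact (Nat.div_lt_iff_lt_mul (by omega)).1 (Nat.lt_succ_self _)
  have hNX : N * (2 * X) = 2 * (N * X) := by ring
  have hx : ∀ i : ℕ, ∃ x : ℕ, i < N → x ∈ r ∧ a - (i + 1) * X < x ∧ x ≤ a - i * X := by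
    intro i
    by_cases hi : i < N
    · have h1 : (i + 1) * X ≤ N * X := Nat.mul_le_mul_right _ hi
      have h2 : (i + 1) * X = i * X + X := by ring
      obtain ⟨x, hx1, hx2, hx3⟩ := hcon (a - i * X) (by omega) (by omega) (by omega)
      exact ⟨x, fun _ => ⟨hx1, by omega, hx3⟩⟩
    · exact ⟨0, fun h => absurd h hi⟩
  choose x hx using hx
  have h1 : N ≤ (r.toFinset.filter (a - N * X ≤ ·)).card := by
    have h2 : (Finset.range N).card ≤ (r.toFinset.filter (a - N * X ≤ ·)).card := by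
      refine Finset.card_le_card_of_injOn x ?_ ?_
      · intro i hi
        rw [Finset.mem_coe, Finset.mem_range] at hi
        obtain ⟨h3, h4, h5⟩ := hx i hi
        have h6 : (i + 1) * X ≤ N * X := Nat.mul_le_mul_right _ hi
        rw [Finset.mem_coe, Finset.mem_filter, Multiset.mem_toFinset]
        exact ⟨h3, by omega⟩
      · intro i hi j hj hij
        rw [Finset.mem_coe, Finset.mem_range] at hi hj
        obtain ⟨-, h4, h5⟩ := hx i hi
        obtain ⟨-, h4', h5'⟩ := hx j hj
        have h6 : (i + 1) * X ≤ N * X := Nat.mul_le_mul_right _ hi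
        have h6' : (j + 1) * X ≤ N * X := Nat.mul_le_mul_right _ hj
        by_contra hne
        rcases Nat.lt_or_gt_of_ne hne with hlt | hlt
        · have : (i + 1) * X ≤ j * X := Nat.mul_le_mul_right _ hlt
          omega
        · have : (j + 1) * X ≤ i * X := Nat.mul_le_mul_right _ hlt
          omega
    rwa [Finset.card_range] at h2
  have h3 : N * (a - N * X) ≤ w :=
    ((Nat.mul_le_mul_right _ h1).trans (card_values r (a - N * X))).trans hr
  have h4 : N * a ≤ 2 * w := by
    calc N * a ≤ N * (2 * (a - N * X)) := Nat.mul_le_mul_left _ (by omega)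
      _ = 2 * (N * (a - N * X)) := by ring
      _ ≤ 2 * w := Nat.mul_le_mul_left _ h3
  have h5 : 8 * w * (2 * X) < ((N + 1) * a) * (2 * X) := by
    calc 8 * w * (2 * X) = 16 * (w * X) := by ring
      _ ≤ a ^ 2 := hw
      _ = a * a := by ring
      _ < ((N + 1) * (2 * X)) * a := Nat.mul_lt_mul_of_pos_right hN2 (by
          by_contra h0
          have h0' : a = 0 := by omega
          subst h0'
          have : 0 < w * X := Nat.mul_pos (by omega) (by omega)
          omega)
      _ = ((N + 1) * a) * (2 * X) := by ring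
  have h6 : 8 * w < (N + 1) * a := Nat.lt_of_mul_lt_mul_right h5
  have h7 : (N + 1) * a = N * a + a := by ring
  omega

/-- the choices -/
noncomputable def ch (n S s X Lam : ℕ) (k r : Multiset ℕ) (v : ℕ) : Finset (Σ _ : Fin n → ℕ, ℕ) :=
  open scoped Classical in
  (Fintype.piFinset fun q : Fin n => (blk S s (q + 1)).filter (· ∉ k)).sigma fun f =>
    (blk S s 0).filter fun u => u ∉ k ∧ v - (u + ∑ q, f q) ∉ r ∧ v - (u + ∑ q, f q) + X ∉ r ∧
      u + Lam ∉ r ∧ (∀ q, f q ≠ u + Lam) ∧ v - (u + ∑ q, f q) ≠ u + Lam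

theorem mem_ch {n S s X Lam v : ℕ} {k r : Multiset ℕ} {c : Σ _ : Fin n → ℕ, ℕ} :
    c ∈ ch n S s X Lam k r v ↔ (∀ q : Fin n, c.1 q ∈ blk S s (q + 1) ∧ c.1 q ∉ k) ∧
      c.2 ∈ blk S s 0 ∧ c.2 ∉ k ∧ v - (c.2 + ∑ q, c.1 q) ∉ r ∧ v - (c.2 + ∑ q, c.1 q) + X ∉ r ∧
      c.2 + Lam ∉ r ∧ (∀ q, c.1 q ≠ c.2 + Lam) ∧ v - (c.2 + ∑ q, c.1 q) ≠ c.2 + Lam := by
  classical
  unfold ch
  simp only [Finset.mem_sigma, Fintype.mem_piFinset, Finset.mem_filter]

/-- lower bound for the number of choices -/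
theorem card_ch {n S s X Lam P v : ℕ} {k r : Multiset ℕ}
    (hP : (k.toFinset.filter (S ≤ ·)).card ≤ P) (hr : ∀ x ∈ r, x ∈ k) (hs : s * (n + 1) ≤ S)
    (hv : 2 * (n + 1) * S + S ≤ v) :
    (s - (4 * P + n + 1)) ^ (n + 1) ≤ (ch n S s X Lam k r v).card := by
  classical
  unfold ch
  rw [Finset.card_sigma]
  have hsum : ∀ f ∈ Fintype.piFinset fun q : Fin n => (blk S s (q + 1)).filter (· ∉ k),
      ∑ q, f q ≤ n * (2 * S) := by
    intro f hf
    rw [Fintype.mem_piFinset] at hf
    calc ∑ q, f q ≤ ∑ _q : Fin n, 2 * S := by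
          refine Finset.sum_le_sum fun q _ => ?_
          have h1 := (Finset.mem_filter.1 (hf q)).1
          exact (blk_lt (K := n + 1) h1 (by omega) hs).le
      _ = n * (2 * S) := by simp
  have hone : ∀ f ∈ Fintype.piFinset fun q : Fin n => (blk S s (q + 1)).filter (· ∉ k),
      s - (4 * P + n + 1) ≤ ((blk S s 0).filter fun u => u ∉ k ∧ v - (u + ∑ q, f q) ∉ r ∧
        v - (u + ∑ q, f q) + X ∉ r ∧ u + Lam ∉ r ∧ (∀ q, f q ≠ u + Lam) ∧
          v - (u + ∑ q, f q) ≠ u + Lam).card := by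
    intro f hf
    have hSig := hsum f hf
    have h4 : 2 * (n + 1) * S = n * (2 * S) + 2 * S := by ring
    have h5 : 0 ≤ n * (2 * S) := Nat.zero_le _
    have hu : ∀ u ∈ blk S s 0, S ≤ u ∧ u + ∑ q, f q + S ≤ v := by
      intro u hu
      have h3 := blk_lt (K := n + 1) hu (by omega) hs
      exact ⟨blk_ge hu, by omega⟩
    have h1 : ((blk S s 0).filter (· ∈ k)).card ≤ P := by
      refine (Finset.card_le_card ?_).trans hP
      intro u hu'
      rw [Finset.mem_filter] at hu' ⊢
      exact ⟨Multiset.mem_toFinset.2 hu'.2, blk_ge hu'.1⟩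
    have h2 : ((blk S s 0).filter fun u => v - (u + ∑ q, f q) ∈ r).card ≤ P := by
      refine (Finset.card_le_card_of_injOn (fun u => v - (u + ∑ q, f q)) ?_ ?_).trans hP
      · intro u hu'
        rw [Finset.mem_coe, Finset.mem_filter] at hu'
        rw [Finset.mem_coe, Finset.mem_filter, Multiset.mem_toFinset]
        have := hu u hu'.1
        refine ⟨hr _ hu'.2, ?_⟩
        show S ≤ v - (u + ∑ q, f q)
        omega
      · intro u hu' u' hu'' huu
        rw [Finset.mem_coe, Finset.mem_filter] at hu' hu''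
        have h6 := hu u hu'.1
        have h7 := hu u' hu''.1
        simp only at huu
        omega
    have h3 : ((blk S s 0).filter fun u => v - (u + ∑ q, f q) + X ∈ r).card ≤ P := by
      refine (Finset.card_le_card_of_injOn (fun u => v - (u + ∑ q, f q) + X) ?_ ?_).trans hP
      · intro u hu'
        rw [Finset.mem_coe, Finset.mem_filter] at hu'
        rw [Finset.mem_coe, Finset.mem_filter, Multiset.mem_toFinset]
        have := hu u hu'.1
        refine ⟨hr _ hu'.2, ?_⟩
        show S ≤ v - (u + ∑ q, f q) + X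
        omega
      · intro u hu' u' hu'' huu
        rw [Finset.mem_coe, Finset.mem_filter] at hu' hu''
        have h6 := hu u hu'.1
        have h7 := hu u' hu''.1
        simp only at huu
        omega
    have h6 : ((blk S s 0).filter fun u => u + Lam ∈ r).card ≤ P := by
      refine (Finset.card_le_card_of_injOn (fun u => u + Lam) ?_ ?_).trans hP
      · intro u hu'
        rw [Finset.mem_coe, Finset.mem_filter] at hu'
        rw [Finset.mem_coe, Finset.mem_filter, Multiset.mem_toFinset]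
        have := hu u hu'.1
        refine ⟨hr _ hu'.2, ?_⟩
        show S ≤ u + Lam
        omega
      · intro u hu' u' hu'' huu
        simp only at huu
        omega
    have h7 : ((blk S s 0).filter fun u => ∃ q, f q = u + Lam).card ≤ n := by
      have h8 : ((blk S s 0).filter fun u => ∃ q, f q = u + Lam).card ≤
          (Finset.univ.image f).card := by
        refine Finset.card_le_card_of_injOn (fun u => u + Lam) ?_ ?_
        · intro u hu'
          rw [Finset.mem_coe, Finset.mem_filter] at hu'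
          obtain ⟨q, hq⟩ := hu'.2
          rw [Finset.mem_coe, Finset.mem_image]
          exact ⟨q, Finset.mem_univ _, hq⟩
        · intro u hu' u' hu'' huu
          simp only at huu
          omega
      refine h8.trans (Finset.card_image_le.trans ?_)
      simp
    have h8 : ((blk S s 0).filter fun u => v - (u + ∑ q, f q) = u + Lam).card ≤ 1 := by
      refine Finset.card_le_one.2 fun u hu' u' hu'' => ?_
      rw [Finset.mem_filter] at hu' hu''
      have h9 := hu u hu'.1
      have h10 := hu u' hu''.1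
      omega
    have h9 : (blk S s 0) ⊆ ((blk S s 0).filter fun u => u ∉ k ∧ v - (u + ∑ q, f q) ∉ r ∧
        v - (u + ∑ q, f q) + X ∉ r ∧ u + Lam ∉ r ∧ (∀ q, f q ≠ u + Lam) ∧
          v - (u + ∑ q, f q) ≠ u + Lam) ∪ (((blk S s 0).filter (· ∈ k)) ∪
        (((blk S s 0).filter fun u => v - (u + ∑ q, f q) ∈ r) ∪
        (((blk S s 0).filter fun u => v - (u + ∑ q, f q) + X ∈ r) ∪
        (((blk S s 0).filter fun u => u + Lam ∈ r) ∪
        (((blk S s 0).filter fun u => ∃ q, f q = u + Lam) ∪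
        ((blk S s 0).filter fun u => v - (u + ∑ q, f q) = u + Lam)))))) := by
      intro u hu'
      simp only [Finset.mem_union, Finset.mem_filter]
      by_cases c1 : u ∈ k
      · exact Or.inr (Or.inl ⟨hu', c1⟩)
      by_cases c2 : v - (u + ∑ q, f q) ∈ r
      · exact Or.inr (Or.inr (Or.inl ⟨hu', c2⟩))
      by_cases c3 : v - (u + ∑ q, f q) + X ∈ r
      · exact Or.inr (Or.inr (Or.inr (Or.inl ⟨hu', c3⟩)))
      by_cases c4 : u + Lam ∈ r
      · exact Or.inr (Or.inr (Or.inr (Or.inr (Or.inl ⟨hu', c4⟩))))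
      by_cases c5 : ∃ q, f q = u + Lam
      · exact Or.inr (Or.inr (Or.inr (Or.inr (Or.inr (Or.inl ⟨hu', c5⟩)))))
      by_cases c6 : v - (u + ∑ q, f q) = u + Lam
      · exact Or.inr (Or.inr (Or.inr (Or.inr (Or.inr (Or.inr ⟨hu', c6⟩)))))
      · exact Or.inl ⟨hu', c1, c2, c3, c4, fun q hq => c5 ⟨q, hq⟩, c6⟩
    have h10 := Finset.card_le_card h9
    rw [card_blk] at h10
    have e1 := h10.trans (Finset.card_union_le _ _)
    have e2 := e1.trans (Nat.add_le_add_left (Finset.card_union_le _ _) _)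
    have e3 := e2.trans (Nat.add_le_add_left (Nat.add_le_add_left (Finset.card_union_le _ _) _) _)
    have e4 := e3.trans (Nat.add_le_add_left (Nat.add_le_add_left (Nat.add_le_add_left
      (Finset.card_union_le _ _) _) _) _)
    have e5 := e4.trans (Nat.add_le_add_left (Nat.add_le_add_left (Nat.add_le_add_left
      (Nat.add_le_add_left (Finset.card_union_le _ _) _) _) _) _)
    have e6 := e5.trans (Nat.add_le_add_left (Nat.add_le_add_left (Nat.add_le_add_left
      (Nat.add_le_add_left (Nat.add_le_add_left (Finset.card_union_le _ _) _) _) _) _) _)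
    omega
  calc (s - (4 * P + n + 1)) ^ (n + 1)
      = (s - (4 * P + n + 1)) ^ n * (s - (4 * P + n + 1)) := pow_succ _ _
    _ ≤ (Fintype.piFinset fun q : Fin n => (blk S s (q + 1)).filter (· ∉ k)).card *
          (s - (4 * P + n + 1)) := by
        refine Nat.mul_le_mul_right _ ?_
        rw [Fintype.card_piFinset]
        calc (s - (4 * P + n + 1)) ^ n = ∏ _q : Fin n, (s - (4 * P + n + 1)) := by simp
          _ ≤ ∏ q : Fin n, ((blk S s (q + 1)).filter (· ∉ k)).card := by
              refine Finset.prod_le_prod' fun q _ => ?_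
              have := card_not_mem (S := S) (s := s) (q := q + 1) hP
              omega
    _ = ∑ _f ∈ Fintype.piFinset fun q : Fin n => (blk S s (q + 1)).filter (· ∉ k),
          (s - (4 * P + n + 1)) := by rw [Finset.sum_const, smul_eq_mul]
    _ ≤ _ := Finset.sum_le_sum hone

theorem sum_ch {n S s X Lam v : ℕ} {k r : Multiset ℕ} {c : Σ _ : Fin n → ℕ, ℕ}
    (hsS : s * (n + 1) ≤ S) (hc : c ∈ ch n S s X Lam k r v) :
    c.2 + ∑ q, c.1 q ≤ 2 * (n + 1) * S := by
  rw [mem_ch] at hc
  have h1 := blk_lt (K := n + 1) hc.2.1 (by omega) hsS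
  have h2 : ∑ q, c.1 q ≤ n * (2 * S) := by
    calc ∑ q, c.1 q ≤ ∑ _q : Fin n, 2 * S := by
          refine Finset.sum_le_sum fun q _ => ?_
          exact (blk_lt (K := n + 1) (hc.1 q).1 (by omega) hsS).le
      _ = n * (2 * S) := by simp
  have h3 : 2 * (n + 1) * S = 2 * S + n * (2 * S) := by ring
  omega

theorem lets_ch {n S s X Lam v : ℕ} {k r : Multiset ℕ} {c : Σ _ : Fin n → ℕ, ℕ}
    (hsS : s * (n + 1) ≤ S) (hc : c ∈ ch n S s X Lam k r v) {u : ℕ} (hu : u ∈ lets c.1 c.2) :
    S ≤ u ∧ u < 2 * S ∧ u ∉ k := by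
  rw [mem_ch] at hc
  rcases mem_lets.1 hu with rfl | ⟨q, rfl⟩
  · exact ⟨blk_ge hc.2.1, blk_lt (K := n + 1) hc.2.1 (by omega) hsS, hc.2.2.1⟩
  · exact ⟨blk_ge (hc.1 q).1, blk_lt (K := n + 1) (hc.1 q).1 (by omega) hsS, (hc.1 q).2⟩

theorem dd_facts {a K c t J x : ℕ} (hK : 1 ≤ K) (hc : 1 ≤ c) (hJ : J ≤ c + t)
    (ht : t ≤ a) (hJa : J + 1 ≤ a) (hx : a < x) :
    J ≤ x - dd a K c t ∧ dd a K c t ≤ x ∧ t + dd a K c t ≤ a ∧ a < c + K + (t + dd a K c t) ∧
      (dd a K c t = 0 ∨ 2 ≤ dd a K c t ∧ t ≤ x - dd a K c t) ∧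
      (c + K + (t + dd a K c t) ≤ c + t + K ∨ c + K + (t + dd a K c t) ≤ a + 2) := by
  unfold dd
  split_ifs with h
  · omega
  · rcases le_total 2 (a + 1 - c - K - t) with h2 | h2
    · rw [max_eq_right h2]
      omega
    · rw [max_eq_left h2]
      omega

theorem sum_sub (X : ℕ) (Y : Multiset ℕ) :
    (∀ x ∈ Y, X ≤ x) → (Y.map (· - X)).sum + X * Multiset.card Y = Y.sum := by
  refine Multiset.induction_on Y ?_ ?_
  · intro _
    simp
  · intro y Y ih h
    have h1 := ih fun x hx => h x (Multiset.mem_cons_of_mem hx)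
    have h2 := h y (Multiset.mem_cons_self _ _)
    rw [Multiset.map_cons, Multiset.sum_cons, Multiset.card_cons, Multiset.sum_cons]
    have h3 : X * (Multiset.card Y + 1) = X * Multiset.card Y + X := by ring
    omega

theorem map_add_sub (X : ℕ) (Y : Multiset ℕ) (h : ∀ x ∈ Y, X ≤ x) :
    (Y.map (· - X)).map (· + X) = Y := by
  rw [Multiset.map_map]
  conv_rhs => rw [← Multiset.map_id Y]
  refine Multiset.map_congr rfl fun x hx => ?_
  have := h x hx
  simp only [Function.comp_apply, id]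
  omega

/-- the letters which are shifted -/
noncomputable def yy (y th : Multiset ℕ × ℕ → ℕ) (p : Multiset ℕ × ℕ) : Multiset ℕ :=
  (p.1.erase (y p)).filter (th p < ·)

/-- the other letters -/
noncomputable def zz (y th : Multiset ℕ × ℕ → ℕ) (p : Multiset ℕ × ℕ) : Multiset ℕ :=
  (p.1.erase (y p)).filter (¬ th p < ·)

theorem yy_add_zz (y th : Multiset ℕ × ℕ → ℕ) (p : Multiset ℕ × ℕ) :
    yy y th p + zz y th p = p.1.erase (y p) := Multiset.filter_add_not _ _

/-- the target of a choice -/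
noncomputable def tgt {n : ℕ} (X : ℕ) (y D th : Multiset ℕ × ℕ → ℕ) (p : Multiset ℕ × ℕ)
    (c : Σ _ : Fin n → ℕ, ℕ) : Multiset ℕ × ℕ :=
  ((c.2 + X * Multiset.card (yy y th p)) ::ₘ ((yy y th p).map (· - X) +
    ((y p - D p - (c.2 + ∑ q, c.1 q)) ::ₘ (Finset.univ.val.map c.1 + zz y th p))), p.2 + D p)

/-- what we know about a source -/
structure Src (a b J K X S w n : ℕ) (y D th : Multiset ℕ × ℕ → ℕ) (p : Multiset ℕ × ℕ) :
    Prop where
  sum : p.1.sum ≤ w
  ge : ∀ x ∈ p.1, S ≤ x
  mem : y p ∈ p.1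
  lt : a < y p
  hD : D p ≤ y p
  big : 2 * (n + 1) * S + S ≤ y p - D p
  tD : p.2 + D p ≤ a
  tha : th p ≤ a
  thX : X ≤ th p
  th2 : a ≤ 2 * (th p - X)
  gap : ∀ x ∈ p.1.erase (y p), x ≤ th p - X ∨ th p < x

open scoped Classical in
/-- the fibres -/
theorem fibre_le {Bad : Finset (Multiset ℕ × ℕ)} {a b J K X S w n s P : ℕ}
    {y D th : Multiset ℕ × ℕ → ℕ} (hsS : s * (n + 1) ≤ S)
    (hy : ∀ p ∈ Bad, Src a b J K X S w n y D th p)
    (p' : Multiset ℕ × ℕ) (hP : (p'.1.toFinset.filter (S ≤ ·)).card ≤ P) :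
    ((Bad.sigma fun p => ch n S s X (X * Multiset.card (yy y th p)) p.1 (p.1.erase (y p))
      (y p - D p)).filter fun p => tgt X y D th p.1 p.2 = p').card ≤
        P ^ (n + 1) * (P * (a + 2) ^ 2) := by
  have hc1 : ∀ q, ((blk S s q).filter (· ∈ p'.1)).card ≤ P := by
    intro q
    refine (Finset.card_le_card ?_).trans hP
    intro u hu
    rw [Finset.mem_filter] at hu ⊢
    exact ⟨Multiset.mem_toFinset.2 hu.2, blk_ge hu.1⟩
  have hU : ((Fintype.piFinset fun q : Fin n => (blk S s (q + 1)).filter (· ∈ p'.1)) ×ˢ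
      ((p'.1.toFinset.filter (S ≤ ·)) ×ˢ ((p'.1.toFinset.filter (S ≤ ·)) ×ˢ
        (Finset.range (a + 2) ×ˢ Finset.range (a + 2))))).card ≤
      P ^ (n + 1) * (P * (a + 2) ^ 2) := by
    rw [Finset.card_product, Finset.card_product, Finset.card_product, Finset.card_product,
      Finset.card_range]
    have h1 : (Fintype.piFinset fun q : Fin n => (blk S s (q + 1)).filter (· ∈ p'.1)).card ≤
        P ^ n := by
      rw [Fintype.card_piFinset]
      calc ∏ q : Fin n, ((blk S s (q + 1)).filter (· ∈ p'.1)).card ≤ ∏ _q : Fin n, P :=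
            Finset.prod_le_prod' fun q _ => hc1 _
        _ = P ^ n := by simp
    calc _ ≤ P ^ n * (P * (P * ((a + 2) * (a + 2)))) :=
          Nat.mul_le_mul h1 (Nat.mul_le_mul hP (Nat.mul_le_mul_right _ hP))
      _ = P ^ (n + 1) * (P * (a + 2) ^ 2) := by ring
  refine (Finset.card_le_card_of_injOn
    (fun p => (p.2.1, (p.2.2 + X * Multiset.card (yy y th p.1),
      (y p.1 - D p.1 - (p.2.2 + ∑ q, p.2.1 q), (D p.1, th p.1))))) ?_ ?_).trans hU
  · intro p hp
    rw [Finset.mem_coe, Finset.mem_filter, Finset.mem_sigma] at hp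
    obtain ⟨⟨hp1, hp2⟩, hp3⟩ := hp
    have hcs := sum_ch hsS hp2
    have hyY := hy _ hp1
    have hbig := hyY.big
    have htD := hyY.tD
    have hta := hyY.tha
    rw [mem_ch] at hp2
    have h31 : (tgt X y D th p.1 p.2).1 = p'.1 := by rw [hp3]
    have hin : ∀ q, p.2.1 q ∈ p'.1 := by
      intro q
      rw [← h31]
      refine Multiset.mem_cons_of_mem (Multiset.mem_add.2 (Or.inr ?_))
      refine Multiset.mem_cons_of_mem (Multiset.mem_add.2 (Or.inl ?_))
      exact Multiset.mem_map.2 ⟨q, Finset.mem_univ_val q, rfl⟩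
    simp only [Finset.coe_product, Set.mem_prod, Finset.mem_coe, Fintype.mem_piFinset,
      Finset.mem_filter, Multiset.mem_toFinset, Finset.mem_range]
    refine ⟨fun q => ⟨(hp2.1 q).1, hin q⟩, ⟨?_, ?_⟩, ⟨?_, ?_⟩, by omega, by omega⟩
    · rw [← h31]
      exact Multiset.mem_cons_self _ _
    · have := blk_ge hp2.2.1
      omega
    · rw [← h31]
      refine Multiset.mem_cons_of_mem (Multiset.mem_add.2 (Or.inr ?_))
      exact Multiset.mem_cons_self _ _
    · omega
  · intro p hp p' hp' hpp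
    rw [Finset.mem_coe, Finset.mem_filter, Finset.mem_sigma] at hp hp'
    obtain ⟨⟨hp1, hp2⟩, hp3⟩ := hp
    obtain ⟨⟨hp1', hp2'⟩, hp3'⟩ := hp'
    have hcs := sum_ch hsS hp2
    have hcs' := sum_ch hsS hp2'
    have hyY := hy _ hp1
    have hyY' := hy _ hp1'
    obtain ⟨p, f, u⟩ := p
    obtain ⟨p₂, f₂, u₂⟩ := p'
    simp only [Prod.mk.injEq] at hpp
    obtain ⟨rfl, hu, hrest, hDD, hth⟩ := hpp
    simp only at hp1 hp1' hp2 hp2' hp3 hp3' hcs hcs' hyY hyY'
    have h2 := hp3.trans hp3'.symm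
    unfold tgt at h2
    simp only [Prod.mk.injEq] at h2
    obtain ⟨h2, h4⟩ := h2
    rw [hu, Multiset.cons_inj_right] at h2
    have h5 : (yy y th p).map (· - X) + zz y th p = (yy y th p₂).map (· - X) + zz y th p₂ := by
      have e1 : ∀ A B : Multiset ℕ, ∀ v : ℕ, A + (v ::ₘ (Finset.univ.val.map f + B)) =
          (v ::ₘ (Finset.univ.val.map f)) + (A + B) := by
        intro A B v
        rw [Multiset.add_cons, Multiset.cons_add, add_left_comm]
      rw [hrest, e1, e1] at h2
      exact add_left_cancel h2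
    have hge : ∀ p, Src a b J K X S w n y D th p → (∀ x ∈ yy y th p, X ≤ x) ∧
        ((yy y th p).map (· - X)).filter (th p - X < ·) = (yy y th p).map (· - X) ∧
        ((yy y th p).map (· - X)).filter (¬ th p - X < ·) = 0 ∧
        (zz y th p).filter (th p - X < ·) = 0 ∧
        (zz y th p).filter (¬ th p - X < ·) = zz y th p := by
      intro p h
      have h6 : ∀ x ∈ (yy y th p).map (· - X), th p - X < x := by
        intro x hx
        obtain ⟨x', hx', rfl⟩ := Multiset.mem_map.1 hx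
        have h7 := (Multiset.mem_filter.1 hx').2
        have h8 := h.thX
        omega
      have h6' : ∀ x ∈ zz y th p, ¬ th p - X < x := by
        intro x hx
        have h7 := Multiset.mem_filter.1 hx
        have h8 := h.gap x h7.1
        omega
      refine ⟨?_, Multiset.filter_eq_self.2 h6, Multiset.filter_eq_nil.2 fun x hx => ?_,
        Multiset.filter_eq_nil.2 h6', Multiset.filter_eq_self.2 h6'⟩
      · intro x hx
        have h7 := (Multiset.mem_filter.1 hx).2
        have h8 := h.thX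
        omega
      · have := h6 x hx
        omega
    obtain ⟨g1, g2, g3, g4, g5⟩ := hge p hyY
    obtain ⟨g1', g2', g3', g4', g5'⟩ := hge p₂ hyY'
    have h6 := congrArg (Multiset.filter (th p - X < ·)) h5
    have h7 := congrArg (Multiset.filter (¬ th p - X < ·)) h5
    rw [Multiset.filter_add, Multiset.filter_add] at h6 h7
    rw [g2, g4, hth, g2', g4', add_zero, add_zero] at h6
    rw [g3, g5, hth, g3', g5', zero_add, zero_add] at h7
    have h8 : yy y th p = yy y th p₂ := by
      rw [← map_add_sub X _ g1, h6, map_add_sub X _ g1']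
    rw [h8] at hu
    have hu' : u = u₂ := by omega
    subst hu'
    have hbig := hyY.big
    have hbig' := hyY'.big
    have hd1 := hyY.hD
    have hd2 := hyY'.hD
    have hyy : y p = y p₂ := by omega
    have h9 : p.1.erase (y p) = p₂.1.erase (y p₂) := by
      rw [← yy_add_zz y th p, ← yy_add_zz y th p₂, h8, h7]
    have h10 : p.1 = p₂.1 := by
      rw [← Multiset.cons_erase hyY.mem, ← Multiset.cons_erase hyY'.mem, h9, hyy]
    have h11 : p.2 = p₂.2 := by omega
    have h12 : p = p₂ := Prod.ext h10 h11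
    subst h12
    rfl

/-- The bad states with the potential. -/
def BadP (a b J K X : ℕ) (p : Multiset ℕ × ℕ) : Prop :=
  (∃ x ∈ p.1, a < x) ∧ (∀ x ∈ p.1, a < x → x ≤ b ∧
    Multiset.card p.1 + p.2 ≤ a + (K + 2) * ((b - x) / X)) ∧ J ≤ Multiset.card p.1 + p.2 ∧
    1 ≤ p.2 ∧ p.2 ≤ a

theorem pot {a b K X l l' x x' : ℕ} (hX : 1 ≤ X) (hl' : l' ≤ l + K ∨ l' ≤ a + 2)
    (hx : x' + X ≤ x) (hb : x ≤ b) (h : l ≤ a + (K + 2) * ((b - x) / X)) :
    x' ≤ b ∧ l' ≤ a + (K + 2) * ((b - x') / X) := by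
  refine ⟨by omega, ?_⟩
  have h1 : (b - x) / X + 1 ≤ (b - x') / X := by
    have h2 : (b - x) / X + 1 = (b - x + X) / X := (Nat.add_div_right _ (by omega)).symm
    rw [h2]
    exact Nat.div_le_div_right (by omega)
  have h3 : (K + 2) * ((b - x) / X + 1) ≤ (K + 2) * ((b - x') / X) := Nat.mul_le_mul_left _ h1
  have h4 : (K + 2) * ((b - x) / X + 1) = (K + 2) * ((b - x) / X) + (K + 2) := by ring
  omega

theorem pot_good {a b K X l l' x : ℕ} (hK : 2 ≤ K) (hX : 4 * K ≤ X)
    (hl' : l' ≤ l + K ∨ l' ≤ a + 2) (hx : a < x) (hb : x ≤ b) (hab : a + K + 2 ≤ b)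
    (h : l ≤ a + (K + 2) * ((b - x) / X)) : l' ≤ b := by
  rcases hl' with hl' | hl'
  · obtain ⟨q, hq⟩ : ∃ q, q = (b - x) / X := ⟨_, rfl⟩
    have h1 : q * X ≤ b - x := by rw [hq]; exact Nat.div_mul_le_self _ _
    rw [← hq] at h
    rcases Nat.eq_zero_or_pos q with h0 | h0
    · subst h0
      omega
    · have h2 : q * (4 * K) ≤ q * X := Nat.mul_le_mul_left _ hX
      have h3 : (K + 2) * q ≤ (2 * K) * q := Nat.mul_le_mul_right _ (by omega)
      have h4 : (2 * K) * q + q * (2 * K) = q * (4 * K) := by ring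
      have h5 : 1 * (2 * K) ≤ q * (2 * K) := Nat.mul_le_mul_right _ h0
      omega
  · omega

/-- **(W7)**. -/
theorem flowW : FlowW := by
  classical
  intro g a b J S K X w hg hsh hK hS hX hw hwX hJ hJa hwa hab
  obtain ⟨n, rfl⟩ : ∃ n, K = n + 1 := ⟨K - 1, by omega⟩
  obtain ⟨s, hs⟩ : ∃ s, s = S / (n + 1) := ⟨_, rfl⟩
  obtain ⟨P, hP⟩ : ∃ P, P = w / S := ⟨_, rfl⟩
  have hsS : s * (n + 1) ≤ S := by rw [hs]; exact Nat.div_mul_le_self _ _
  have hPS : P * S ≤ w := by rw [hP]; exact Nat.div_mul_le_self _ _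
  have hPw : P ≤ w := by rw [hP]; exact Nat.div_le_self _ _
  obtain ⟨V, hV⟩ : ∃ V, V = KT w S ×ˢ Finset.range (a + 2) := ⟨_, rfl⟩
  obtain ⟨Bad, hBad⟩ : ∃ Bad, Bad = V.filter (BadP a b J (n + 1) X) := ⟨_, rfl⟩
  obtain ⟨G, hG⟩ : ∃ G, G = V.filter (GoodW a b) := ⟨_, rfl⟩
  obtain ⟨T, hT⟩ : ∃ T, T = Bad ∪ G := ⟨_, rfl⟩
  rw [← hV, ← hG]
  have hsub : ∑ p ∈ V.filter (BadW a b J), g p.1 p.2 ≤ ∑ p ∈ Bad, g p.1 p.2 := by
    refine Finset.sum_le_sum_of_subset ?_
    intro p hp
    rw [Finset.mem_filter] at hp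
    rw [hBad, Finset.mem_filter]
    obtain ⟨h1, h2, h3, h4, h5, h6⟩ := hp
    exact ⟨h1, h2, fun x hx _ => ⟨h3 x hx, by
      have : 0 ≤ (n + 1 + 2) * ((b - x) / X) := Nat.zero_le _
      omega⟩, h4, h5, by omega⟩
  refine (Nat.mul_le_mul_left 3 hsub).trans ?_
  have hdis : Disjoint Bad G := by
    rw [Finset.disjoint_left]
    intro p hp hp'
    rw [hBad, Finset.mem_filter] at hp
    rw [hG, Finset.mem_filter] at hp'
    obtain ⟨x, hx, hxa⟩ := hp.2.1
    have := hp'.2.1 x hx
    omega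
  have hsumT : ∑ p ∈ T, g p.1 p.2 = ∑ p ∈ Bad, g p.1 p.2 + ∑ p ∈ G, g p.1 p.2 := by
    rw [hT, Finset.sum_union hdis]
  have hmV : ∀ p : Multiset ℕ × ℕ, p ∈ V ↔ (p.1.sum ≤ w ∧ ∀ x ∈ p.1, S ≤ x) ∧ p.2 < a + 2 := by
    intro p
    rw [hV, Finset.mem_product, mem_KT (by omega), Finset.mem_range]
  have hvals : ∀ p ∈ Bad, (p.1.sum ≤ w ∧ ∀ x ∈ p.1, S ≤ x) ∧ BadP a b J (n + 1) X p := by
    intro p hp
    rw [hBad, Finset.mem_filter, hmV] at hp
    exact ⟨hp.1.1, hp.2⟩
  -- if there are no bad states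
  by_cases hTe : Bad = ∅
  · rw [hTe, Finset.sum_empty]
    omega
  obtain ⟨p₁, hp₁⟩ := Finset.nonempty_iff_ne_empty.2 hTe
  have hSJ : S ≤ J := by
    have : (2 * (n + 1) + 3) * S = S + (2 * (n + 1) + 2) * S := by ring
    omega
  have haw : a < w := by
    obtain ⟨x, hx, hxa⟩ := (hvals p₁ hp₁).2.1
    have h1 := Multiset.le_sum_of_mem hx
    have h2 := (hvals p₁ hp₁).1.1
    omega
  have hP1 : 1 ≤ P := by
    rw [hP, Nat.le_div_iff_mul_le (by omega)]
    omega
  -- numbers
  have hXP : P * X ^ 2 ≤ S := by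
    have h1 : P * X ^ 2 * S ≤ S * S := by
      calc P * X ^ 2 * S = P * S * X ^ 2 := by ring
        _ ≤ w * X ^ 2 := Nat.mul_le_mul_right _ hPS
        _ ≤ S ^ 2 := hw
        _ = S * S := by ring
    exact Nat.le_of_mul_le_mul_right h1 (by omega)
  have hX8 : 8 ≤ X := by omega
  have hXS : X ≤ S := by
    have h1 : X ≤ P * X ^ 2 := by nlinarith
    omega
  have hsP : X * P ≤ s - (4 * P + n + 1) := by
    have h1 : X * P + (4 * P + n + 1) ≤ s := by
      rw [hs, Nat.le_div_iff_mul_le (by omega)]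
      have h2 : X * P + (4 * P + n + 1) ≤ 3 * (X * P) := by
        have h3 : 8 * P ≤ X * P := Nat.mul_le_mul_right _ hX8
        have h4 : X * 1 ≤ X * P := Nat.mul_le_mul_left _ hP1
        omega
      calc (X * P + (4 * P + n + 1)) * (n + 1) ≤ (3 * (X * P)) * (n + 1) :=
            Nat.mul_le_mul_right _ h2
        _ = (X * P) * (3 * (n + 1)) := by ring
        _ ≤ (X * P) * X := Nat.mul_le_mul_left _ (by omega)
        _ = P * X ^ 2 := by ring
        _ ≤ S := hXP
    omega
  -- the letter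
  have hlet : ∀ p : Multiset ℕ × ℕ, ∃ y : ℕ, p ∈ Bad → y ∈ p.1 ∧ a < y := by
    intro p
    by_cases hp : p ∈ Bad
    · obtain ⟨y, h1, h2⟩ := (hvals p hp).2.1
      exact ⟨y, fun _ => ⟨h1, h2⟩⟩
    · exact ⟨0, fun h => absurd h hp⟩
  choose y hy using hlet
  have hgap : ∀ p : Multiset ℕ × ℕ, ∃ th : ℕ, p ∈ Bad → th ≤ a ∧ X ≤ th ∧ a ≤ 2 * (th - X) ∧
      ∀ x ∈ p.1.erase (y p), x ≤ th - X ∨ th < x := by
    intro p
    by_cases hp : p ∈ Bad
    · have h1 : (p.1.erase (y p)).sum ≤ w := by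
        have h2 := (hvals p hp).1.1
        have h3 : p.1.sum = y p + (p.1.erase (y p)).sum := by
          conv_lhs => rw [← Multiset.cons_erase (hy p hp).1]
          rw [Multiset.sum_cons]
        omega
      obtain ⟨th, h⟩ := gap (by omega) h1 hwa haw
      exact ⟨th, fun _ => h⟩
    · exact ⟨0, fun h => absurd h hp⟩
  choose th hth using hgap
  obtain ⟨D, hD⟩ : ∃ D : Multiset ℕ × ℕ → ℕ, D = fun p =>
      dd a (n + 1) (Multiset.card p.1) p.2 := ⟨_, rfl⟩
  have hfac : ∀ p ∈ Bad, J ≤ y p - D p ∧ D p ≤ y p ∧ p.2 + D p ≤ a ∧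
      a < Multiset.card p.1 + (n + 1) + (p.2 + D p) ∧
      (D p = 0 ∨ 2 ≤ D p ∧ p.2 ≤ y p - D p) ∧
      (Multiset.card p.1 + (n + 1) + (p.2 + D p) ≤ Multiset.card p.1 + p.2 + (n + 1) ∨
        Multiset.card p.1 + (n + 1) + (p.2 + D p) ≤ a + 2) := by
    intro p hp
    obtain ⟨h1, -, h2, h3, h4⟩ := (hvals p hp).2
    rw [hD]
    refine dd_facts (by omega) ?_ h2 h4 hJa (hy p hp).2
    exact Multiset.card_pos_iff_exists_mem.2 ⟨_, (hy p hp).1⟩
  have hJS : 2 * (n + 1) * S + 3 * S ≤ J := by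
    have : (2 * (n + 1) + 3) * S = 2 * (n + 1) * S + 3 * S := by ring
    omega
  have h7S : 7 * S ≤ J := by
    have : (2 * 2 + 3) * S ≤ (2 * (n + 1) + 3) * S := Nat.mul_le_mul_right _ (by omega)
    omega
  have hsrc : ∀ p ∈ Bad, Src a b J (n + 1) X S w n y D th p := by
    intro p hp
    obtain ⟨hf1, hf2, hf3, hf4, hf5⟩ := hfac p hp
    obtain ⟨ht1, ht2, ht3, ht4⟩ := hth p hp
    obtain ⟨hv1, hv2⟩ := hvals p hp
    exact ⟨hv1.1, hv1.2, (hy p hp).1, (hy p hp).2, hf2, by omega, hf3, ht1, ht2, ht3, ht4⟩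
  have hcard : ∀ k : Multiset ℕ, k.sum ≤ w → (k.toFinset.filter (S ≤ ·)).card ≤ P := by
    intro k hk
    rw [hP, Nat.le_div_iff_mul_le (by omega)]
    exact (card_values k S).trans hk
  -- the receptacle is small
  have hrec : ∀ p ∈ Bad, ∀ u, u < 2 * S →
      u + X * Multiset.card (yy y th p) ≤ th p - X := by
    intro p hp u hu
    have h1 : Multiset.card (yy y th p) * (th p - X) ≤ w := by
      have h2 : Multiset.card (yy y th p) * (th p - X) ≤ (yy y th p).sum := by
        have h3 : ∀ x ∈ yy y th p, th p - X ≤ x := by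
          intro x hx
          have := (Multiset.mem_filter.1 hx).2
          omega
        have h4 := Multiset.card_nsmul_le_sum h3
        rwa [smul_eq_mul] at h4
      have h3 : (yy y th p).sum ≤ (p.1.erase (y p)).sum := by
        conv_rhs => rw [← yy_add_zz y th p, Multiset.sum_add]
        exact Nat.le_add_right _ _
      have h4 : p.1.sum = y p + (p.1.erase (y p)).sum := by
        conv_lhs => rw [← Multiset.cons_erase (hy p hp).1]
        rw [Multiset.sum_cons]
      have h5 := (hvals p hp).1.1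
      omega
    have h2 := (hth p hp).2.2.1
    obtain ⟨m, hm⟩ : ∃ m, m = Multiset.card (yy y th p) := ⟨_, rfl⟩
    rw [← hm] at h1 ⊢
    have h3 : m * a ≤ 2 * w := by
      calc m * a ≤ m * (2 * (th p - X)) := Nat.mul_le_mul_left _ h2
        _ = 2 * (m * (th p - X)) := by ring
        _ ≤ 2 * w := Nat.mul_le_mul_left _ h1
    have h4 : (8 * (X * m)) * a ≤ a * a := by
      calc (8 * (X * m)) * a = 8 * X * (m * a) := by ring
        _ ≤ 8 * X * (2 * w) := Nat.mul_le_mul_left _ h3
        _ = 16 * (w * X) := by ring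
        _ ≤ a ^ 2 := hwa
        _ = a * a := by ring
    have h5 : 8 * (X * m) ≤ a := Nat.le_of_mul_le_mul_right h4 (by omega)
    omega
  have main : (X * P) ^ (n + 1) * ∑ p ∈ Bad, g p.1 p.2 ≤
      (P ^ (n + 1) * (P * (a + 2) ^ 2)) * ∑ p ∈ T, g p.1 p.2 := by
    refine double_count Bad T
      (fun p => ch n S s X (X * Multiset.card (yy y th p)) p.1 (p.1.erase (y p)) (y p - D p))
      (fun p c => tgt X y D th p c) (fun p => g p.1 p.2) _ _ ?_ ?_ ?_ ?_
    · intro p hp
      refine (Nat.pow_le_pow_left hsP _).trans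
        (card_ch (hcard _ (hvals p hp).1.1) (fun x hx => Multiset.mem_of_mem_erase hx) hsS ?_)
      have h1 := (hfac p hp).1
      omega
    · intro p hp c hc
      obtain ⟨hf1, hf2, hf3, hf4, -, hf6⟩ := hfac p hp
      obtain ⟨ht1, ht2, ht3, ht4⟩ := hth p hp
      obtain ⟨⟨hv1, hv2⟩, hv3, hvp, hv4, hv5, hv6⟩ := hvals p hp
      have hcs := sum_ch hsS hc
      have hlc := fun u (hu : u ∈ lets c.1 c.2) => lets_ch hsS hc hu
      have hu0 := hlc c.2 (mem_lets.2 (Or.inl rfl))
      have hrc := hrec p hp c.2 hu0.2.1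
      have hyk := (hy p hp).1
      have hya := (hy p hp).2
      have hyX : ∀ x ∈ yy y th p, X ≤ x := by
        intro x hx
        have := (Multiset.mem_filter.1 hx).2
        omega
      have hksum : p.1.sum = y p + ((yy y th p).sum + (zz y th p).sum) := by
        rw [← Multiset.sum_add, yy_add_zz]
        conv_lhs => rw [← Multiset.cons_erase hyk]
        rw [Multiset.sum_cons]
      have hkcard : Multiset.card p.1 = Multiset.card (yy y th p) +
          Multiset.card (zz y th p) + 1 := by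
        rw [← Multiset.card_add, yy_add_zz]
        conv_lhs => rw [← Multiset.cons_erase hyk]
        rw [Multiset.card_cons]
      have hsum : (tgt X y D th p c).1.sum ≤ w := by
        have h1 := sum_sub X (yy y th p) hyX
        have h2 : (Finset.univ.val.map c.1).sum = ∑ q, c.1 q := rfl
        unfold tgt
        simp only [Multiset.sum_cons, Multiset.sum_add, h2]
        omega
      have hcd : Multiset.card (tgt X y D th p c).1 = Multiset.card p.1 + (n + 1) := by
        unfold tgt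
        simp only [Multiset.card_cons, Multiset.card_add, Multiset.card_map, Finset.card_val,
          Finset.card_univ, Fintype.card_fin]
        omega
      have hmemt : ∀ x ∈ (tgt X y D th p c).1, x = c.2 + X * Multiset.card (yy y th p) ∨
          (∃ x' ∈ yy y th p, x' - X = x) ∨ x = y p - D p - (c.2 + ∑ q, c.1 q) ∨
          (∃ q, c.1 q = x) ∨ x ∈ zz y th p := by
        intro x hx
        unfold tgt at hx
        simp only [Multiset.mem_cons, Multiset.mem_add, Multiset.mem_map] at hx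
        rcases hx with hx | hx | hx | ⟨q, -, hx⟩ | hx
        · exact Or.inl hx
        · exact Or.inr (Or.inl hx)
        · exact Or.inr (Or.inr (Or.inl hx))
        · exact Or.inr (Or.inr (Or.inr (Or.inl ⟨q, hx⟩)))
        · exact Or.inr (Or.inr (Or.inr (Or.inr hx)))
      have hge : ∀ x ∈ (tgt X y D th p c).1, S ≤ x := by
        intro x hx
        rcases hmemt x hx with rfl | ⟨x', hx', rfl⟩ | rfl | ⟨q, rfl⟩ | hx
        · have := hu0.1
          omega
        · have := (Multiset.mem_filter.1 hx').2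
          omega
        · omega
        · exact (hlc _ (mem_lets.2 (Or.inr ⟨q, rfl⟩))).1
        · exact hv2 x (Multiset.mem_of_mem_erase (Multiset.mem_filter.1 hx).1)
      have h2 : (tgt X y D th p c).2 = p.2 + D p := rfl
      have hmem : tgt X y D th p c ∈ V := (hmV _).2 ⟨⟨hsum, hge⟩, by omega⟩
      rw [hT, Finset.mem_union]
      by_cases hall : ∀ x ∈ (tgt X y D th p c).1, x ≤ a
      · right
        rw [hG, Finset.mem_filter]
        obtain ⟨hb1, hb2⟩ := hvp (y p) hyk hya
        refine ⟨hmem, hall, by omega, by omega, ?_⟩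
        refine pot_good (l' := Multiset.card (tgt X y D th p c).1 + (tgt X y D th p c).2)
          hK hX ?_ hya hb1 hab hb2
        omega
      · left
        push Not at hall
        rw [hBad, Finset.mem_filter]
        refine ⟨hmem, hall, ?_, by omega, by omega, by omega⟩
        intro x hx hxa
        rcases hmemt x hx with rfl | ⟨x', hx', rfl⟩ | rfl | ⟨q, rfl⟩ | hx
        · omega
        · have hx'' := Multiset.mem_of_mem_erase (Multiset.mem_filter.1 hx').1
          obtain ⟨hb1, hb2⟩ := hvp x' hx'' (by omega)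
          refine pot (by omega) ?_ (x := x') (by omega) hb1 hb2
          omega
        · obtain ⟨hb1, hb2⟩ := hvp (y p) hyk hya
          refine pot (by omega) ?_ (x := y p) (by have := hu0.1; omega) hb1 hb2
          omega
        · have := (hlc _ (mem_lets.2 (Or.inr ⟨q, rfl⟩))).2.1
          omega
        · have := (Multiset.mem_filter.1 hx).2
          omega
    · intro p hp c hc
      obtain ⟨hf1, hf2, hf3, hf4, hf5, hf6⟩ := hfac p hp
      obtain ⟨ht1, ht2, ht3, ht4⟩ := hth p hp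
      obtain ⟨⟨hv1, hv2⟩, hv3, hvp, hv4, hv5, hv6⟩ := hvals p hp
      have hcs := sum_ch hsS hc
      have hyk := (hy p hp).1
      have hlc := fun u (hu : u ∈ lets c.1 c.2) => lets_ch hsS hc hu
      have hu0 := hlc c.2 (mem_lets.2 (Or.inl rfl))
      have hrc := hrec p hp c.2 hu0.2.1
      rw [mem_ch] at hc
      obtain ⟨hc1, hc2, hc3, hc4, hc5, hc6, hc7, hc8⟩ := hc
      have hnd := nodup_lets (fun q => (hc1 q).1) hc2
      have hpos : 0 < c.2 + ∑ q, c.1 q := by
        have := blk_ge hc2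
        omega
      have h1 := hg (p.1.erase (y p)) ((y p - D p - (c.2 + ∑ q, c.1 q)) ::ₘ lets c.1 c.2)
        (y p) (D p) p.2 hv5 (by omega) ?_ ?_ ?_ ?_
      · rw [Multiset.cons_erase hyk] at h1
        refine h1.trans ?_
        have h2 : (y p - D p - (c.2 + ∑ q, c.1 q)) ::ₘ lets c.1 c.2 + p.1.erase (y p) =
            c.2 ::ₘ (yy y th p + ((y p - D p - (c.2 + ∑ q, c.1 q)) ::ₘ
              (Finset.univ.val.map c.1 + zz y th p))) := by
          rw [← yy_add_zz y th p]
          unfold lets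
          rw [Multiset.cons_add, Multiset.cons_add, Multiset.add_cons, Multiset.cons_swap,
            add_left_comm]
        rw [h2]
        refine hsh (yy y th p) ((y p - D p - (c.2 + ∑ q, c.1 q)) ::ₘ
          (Finset.univ.val.map c.1 + zz y th p)) c.2 X (p.2 + D p) (by omega) ?_ ?_
        · intro x hx
          have hx1 := Multiset.mem_filter.1 hx
          refine ⟨by omega, ?_, by omega⟩
          rw [Multiset.mem_cons, Multiset.mem_add, Multiset.mem_map]
          rintro (h | ⟨q, -, h⟩ | h)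
          · apply hc5
            rw [← h]
            have h3 : x - X + X = x := by omega
            rw [h3]
            exact hx1.1
          · have h3 := (hlc _ (mem_lets.2 (Or.inr ⟨q, rfl⟩))).2.1
            omega
          · have h3 := Multiset.mem_filter.1 h
            have h4 := ht4 _ h3.1
            omega
        · rw [Multiset.mem_cons, Multiset.mem_add, Multiset.mem_map]
          rintro (h | ⟨q, -, h⟩ | h)
          · exact hc8 h.symm
          · exact hc7 q h
          · exact hc6 (Multiset.mem_filter.1 h).1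
      · rw [Multiset.nodup_cons]
        refine ⟨fun h => ?_, hnd⟩
        have := (hlc _ h).2.1
        omega
      · intro u hu
        rw [Multiset.mem_cons] at hu
        rcases hu with rfl | hu
        · exact ⟨by omega, hc4, by omega⟩
        · have h2 := hlc u hu
          exact ⟨h2.1, fun h => h2.2.2 (Multiset.mem_of_mem_erase h), by omega⟩
      · rw [Multiset.sum_cons, sum_lets]
        omega
      · rcases hf5 with h | ⟨h, h'⟩
        · exact Or.inl h
        · refine Or.inr ⟨h, ?_⟩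
          rw [Multiset.sum_cons, sum_lets]
          omega
    · intro p' hp'
      have hp's : p'.1.sum ≤ w := by
        rw [hT, Finset.mem_union, hBad, hG, Finset.mem_filter, Finset.mem_filter] at hp'
        rcases hp' with h | h
        · exact ((hmV _).1 h.1).1.1
        · exact ((hmV _).1 h.1).1.1
      exact fibre_le hsS hsrc p' (hcard _ hp's)
  -- conclusion
  have hPpos : 0 < P ^ (n + 1) * (P * (a + 2) ^ 2) :=
    Nat.mul_pos (Nat.pow_pos hP1) (Nat.mul_pos hP1 (Nat.pow_pos (by omega)))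
  have h4 : 4 * (P ^ (n + 1) * (P * (a + 2) ^ 2)) ≤ (X * P) ^ (n + 1) := by
    rw [mul_pow]
    calc 4 * (P ^ (n + 1) * (P * (a + 2) ^ 2)) = (4 * (P * (a + 2) ^ 2)) * P ^ (n + 1) := by ring
      _ ≤ (4 * ((w + 1) * (a + 2) ^ 2)) * P ^ (n + 1) := by
          refine Nat.mul_le_mul_right _ (Nat.mul_le_mul_left _ (Nat.mul_le_mul_right _ ?_))
          omega
      _ ≤ X ^ (n + 1) * P ^ (n + 1) := Nat.mul_le_mul_right _ hwX
  have h5 : 4 * ∑ p ∈ Bad, g p.1 p.2 ≤ ∑ p ∈ T, g p.1 p.2 := by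
    have h6 : (P ^ (n + 1) * (P * (a + 2) ^ 2)) * (4 * ∑ p ∈ Bad, g p.1 p.2) ≤
        (P ^ (n + 1) * (P * (a + 2) ^ 2)) * ∑ p ∈ T, g p.1 p.2 := by
      calc (P ^ (n + 1) * (P * (a + 2) ^ 2)) * (4 * ∑ p ∈ Bad, g p.1 p.2)
          = (4 * (P ^ (n + 1) * (P * (a + 2) ^ 2))) * ∑ p ∈ Bad, g p.1 p.2 := by ring
        _ ≤ (X * P) ^ (n + 1) * ∑ p ∈ Bad, g p.1 p.2 := Nat.mul_le_mul_right _ h4
        _ ≤ _ := main
    exact Nat.le_of_mul_le_mul_left h6 hPpos
  omega

end Vale.Agent.P181.DU.S317.W7
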